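import Vale.Agent.P231.H584.Lev2

/-! P231, stage 3, the end: the ring structure of the basic cohomology of the unit tangent bundle,
and the level two relation. -/

set_option linter.unusedSectionVars false
set_option linter.unusedVariables false

open MeasureTheory Set Module Filter Topology
open scoped ContDiff Real

namespace Vale.Agent.P231.S3F

open Fm W H584
open Fm.Form (IsDeg)

noncomputable section

variable {B U M : Type*} {dB : Dif B} {dU : Dif U} {dM : Dif M} {D c : ℝ}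
  {S : Sys dB dU dM 1 D c}

/-- a representative of the class `u` -/
structure UC (S : Sys dB dU dM 1 D c) (u : Form dU) : Prop where
  sg : u.sg = u
  d : u.d = 0
  bas : Basic S.φU S.hφU.map u
  rel : Eqv S.hφ.map (Form.pull S.pi S.hpi u) ((1 / 2 : ℝ) • (S.G1 + S.G2))

/-- the pull-back to the sphere bundle is injective on basic cohomology -/
theorem inj (hP : S.PP) (hFd : IsDeg 8 S.F) {ε : ℝ} (hε : ε ≠ 0) {l : Form dB}
    (hl : S.b1 = ε • S.b0 + l.d) {w : Form dU} {m : Form dB} (hm : Basic S.φ S.hφ.map m)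
    (h : S.b1 * Form.pull S.pi S.hpi w = m.d) :
    ∃ m' : Form dU, Basic S.φU S.hφU.map m' ∧ w = m'.d := by
  have h1 := congrArg S.P h
  rw [S.hPm, Sys.P_b1 hP hFd hl, S.hPd, smul_mul_assoc, one_mul] at h1
  have h2 : ε * S.k ≠ 0 := mul_ne_zero hε S.hk
  refine ⟨(ε * S.k)⁻¹ • S.P m, Basic.smul _ (hP.bas _ hm), ?_⟩
  rw [Form.d_smul, ← h1, smul_smul, inv_mul_cancel₀ h2, one_smul]

/-- the class `u` is unique -/
theorem UC.unique (hP : S.PP) (hFd : IsDeg 8 S.F) {ε : ℝ} (hε : ε ≠ 0) {l : Form dB}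
    (hl : S.b1 = ε • S.b0 + l.d) {u u' : Form dU} (hu : UC S u) (hu' : UC S u') :
    ∃ m : Form dU, Basic S.φU S.hφU.map m ∧ u = u' + m.d := by
  obtain ⟨m1, hm1, h1⟩ := hu.rel
  obtain ⟨m2, hm2, h2⟩ := hu'.rel
  have h3 : Form.pull S.pi S.hpi (u - u') = (m1 - m2).d := by
    rw [pull_sub, h1, h2, Form.d_sub]
    abel
  obtain ⟨m', hm', h4⟩ := inj hP hFd hε hl (w := u - u') (m := S.b1 * (m1 - m2))
    (Basic.mul S.b1_basic (Basic.sub hm1 hm2)) (by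
      rw [h3, Form.d_mul, S.b1_d, zero_mul, zero_add, S.b1_sg])
  refine ⟨m', hm', ?_⟩
  rw [← h4]
  abel

section alg

theorem ring_u {R : Type*} [CommRing R] [Algebra ℝ R] {E u x1 x2 b : R} {a μ : ℝ}
    (r1 : 2 * u = x1 + x2) (r2 : x1 - x2 = E * b)
    (r4 : b ^ 2 = a • E ^ 6 + μ • (E ^ 2 * (x1 + x2)))
    (r5 : b * (x2 ^ 2 + x2 * x1 + x1 ^ 2) = 0) :
    b * ((3 : ℝ) • u ^ 2 + (a / 4) • E ^ 8 + (μ / 2) • (E ^ 4 * u)) = 0 := by
  have t4 : algebraMap ℝ R (1 / 4) * 4 = 1 := by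
    rw [← map_ofNat (algebraMap ℝ R) 4, ← map_mul]
    norm_num
  have ha : algebraMap ℝ R (a / 4) = algebraMap ℝ R (1 / 4) * algebraMap ℝ R a := by
    rw [← map_mul]
    congr 1
    ring
  have hμ : algebraMap ℝ R (μ / 2) = 2 * (algebraMap ℝ R (1 / 4) * algebraMap ℝ R μ) := by
    rw [← map_ofNat (algebraMap ℝ R) 2, ← map_mul, ← map_mul]
    congr 1
    ring
  simp only [Algebra.smul_def, ha, hμ, map_ofNat] at r4 ⊢
  generalize algebraMap ℝ R (1 / 4) = t at *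
  generalize algebraMap ℝ R a = A at *
  generalize algebraMap ℝ R μ = N at *
  linear_combination t * (4 * r5 + 3 * b * (2 * u + x1 + x2) * r1 - b * E ^ 2 * r4 -
    b * (x1 - x2 + E * b) * r2 + N * b * E ^ 4 * r1) - 3 * b * u ^ 2 * t4

theorem ring_pair {R : Type*} [CommRing R] [Algebra ℝ R] {E u c q : R} {a μ a7 β7 g4 b4 : ℝ}
    (h3 : (3 : ℝ) • u ^ 2 + (a / 4) • E ^ 8 + (μ / 2) • (E ^ 4 * u) = 0)
    (hc : c = (a7 / 128) • E ^ 7 + (β7 / 8) • (E ^ 3 * u))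
    (hq : q = (g4 / 16) • E ^ 4 + b4 • u) :
    c * q = ((a7 * g4 - 64 / 3 * (a * β7 * b4)) / 2048) • E ^ 11 +
      ((a7 * b4 + β7 * g4 - 8 / 3 * (μ * β7 * b4)) / 128) • (E ^ 7 * u) := by
  have h3' : E ^ 3 * u ^ 2 = (-(a / 12)) • E ^ 11 + (-(μ / 6)) • (E ^ 7 * u) := by
    have h4 := congrArg (fun z => (1 / 3 : ℝ) • (E ^ 3 * z)) h3
    simp only [mul_add, mul_smul_comm, smul_add, smul_smul, mul_zero, smul_zero] at h4
    have e1 : (1 / 3 * 3 : ℝ) = 1 := by norm_num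
    have e2 : E ^ 3 * E ^ 8 = E ^ 11 := by ring
    have e3 : E ^ 3 * (E ^ 4 * u) = E ^ 7 * u := by ring
    rw [e1, one_smul, e2, e3] at h4
    linear_combination (norm := module) h4
  rw [hc, hq]
  have e1 : (E ^ 7 : R) * E ^ 4 = E ^ 11 := by ring
  have e2 : E ^ 7 * u = E ^ 7 * u := rfl
  have e3 : E ^ 3 * u * E ^ 4 = E ^ 7 * u := by ring
  have e4 : E ^ 3 * u * u = E ^ 3 * u ^ 2 := by ring
  simp only [add_mul, mul_add, smul_mul_assoc, mul_smul_comm, smul_smul, e1, e3, e4, h3',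
    smul_add]
  module

end alg

/-- **the quadratic relation for `u`** -/
theorem UC.sq (hP : S.PP) (hFd : IsDeg 8 S.F) {ε : ℝ} (hε : ε ≠ 0) {l : Form dB}
    (hl : S.b1 = ε • S.b0 + l.d) {a μ : ℝ} {ρ : Form dB} (hρ : Basic S.φ S.hφ.map ρ)
    (hrel : S.b1 ^ 2 = a • S.e ^ 6 + μ • (S.e ^ 2 * (S.G1 + S.G2)) + ρ.d)
    {u : Form dU} (hu : UC S u) : ∃ m : Form dU, Basic S.φU S.hφU.map m ∧
      (3 : ℝ) • u ^ 2 + (a / 4) • S.eU ^ 8 + (μ / 2) • (S.eU ^ 4 * u) = m.d := by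
  have hPe : ∀ {w : Form dU}, w.sg = w → (Form.pull S.pi S.hpi w).sg =
      Form.pull S.pi S.hpi w := fun hw => by rw [← Form.pull_sg, hw]
  let x1 : Bas S.φ S.hφ.map := ⟨S.G1, S.G1_good.2.1, S.G1_good.1, S.G1_basic⟩
  let x2 : Bas S.φ S.hφ.map := ⟨S.G2, S.G2_good.2.1, S.G2_good.1, S.G2_basic⟩
  let b' : Bas S.φ S.hφ.map := ⟨S.b1, S.b1_sg, S.b1_d, S.b1_basic⟩
  let e' : Bas S.φ S.hφ.map := ⟨S.e, S.e_sg, S.e_d, S.e_basic⟩
  let u' : Bas S.φ S.hφ.map := ⟨Form.pull S.pi S.hpi u, hPe hu.sg,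
    by rw [← Form.pull_d, hu.d, pull_zero],
    Basic.pull S.hφ.map S.hφU.map S.hpi S.hpφ hu.bas⟩
  set Q := Ideal.Quotient.mkₐ ℝ (Exa S.φ S.hφ.map) with hQ
  have hsm : ∀ (r : ℝ) (w : Bas S.φ S.hφ.map), Q (r • w) = r • Q w := fun r w => rfl
  have r1 : 2 * Q u' = Q x1 + Q x2 := by
    obtain ⟨v, hv, hv'⟩ := hu.rel
    have h1 : Q u' = Q ((1 / 2 : ℝ) • (x1 + x2)) := eq_quot S.φ S.hφ.map hv hv'
    rw [h1, hsm, two_half, map_add]
  have r2 : Q x1 - Q x2 = Q e' * Q b' := by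
    obtain ⟨v, hv, hv'⟩ := S.gysin1
    rw [← map_sub, ← map_mul]
    exact eq_quot S.φ S.hφ.map hv hv'
  have r4 : Q b' ^ 2 = a • Q e' ^ 6 + μ • (Q e' ^ 2 * (Q x1 + Q x2)) := by
    have h5 : Q (b' ^ 2) = Q (a • e' ^ 6 + μ • (e' ^ 2 * (x1 + x2))) :=
      eq_quot S.φ S.hφ.map hρ hrel
    rw [map_pow, map_add, hsm, hsm, map_mul, map_pow, map_pow, map_add] at h5
    exact h5
  have r5 : Q b' * (Q x2 ^ 2 + Q x2 * Q x1 + Q x1 ^ 2) = 0 := by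
    obtain ⟨v, hv, hv'⟩ := S.b1_hh
    have h5 : Q (b' * (x2 ^ 2 + x2 * x1 + x1 ^ 2)) = Q 0 := by
      refine eq_quot S.φ S.hφ.map hv ?_
      refine Eq.trans hv' ?_
      exact (zero_add v.d).symm
    rw [map_zero, map_mul, map_add, map_add, map_pow, map_mul, map_pow] at h5
    exact h5
  have h6 := ring_u r1 r2 r4 r5
  have h7 : Q (b' * ((3 : ℝ) • u' ^ 2 + (a / 4) • e' ^ 8 + (μ / 2) • (e' ^ 4 * u'))) = Q 0 := by
    rw [map_zero, map_mul, map_add, map_add, hsm, hsm, hsm, map_mul, map_pow, map_pow, map_pow]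
    exact h6
  obtain ⟨m, hm, hm'⟩ := quot_eq S.φ S.hφ.map h7
  have h8 : S.b1 * Form.pull S.pi S.hpi ((3 : ℝ) • u ^ 2 + (a / 4) • S.eU ^ 8 +
      (μ / 2) • (S.eU ^ 4 * u)) = m.d := by
    have h9 : S.b1 * ((3 : ℝ) • Form.pull S.pi S.hpi u ^ 2 + (a / 4) • S.e ^ 8 +
        (μ / 2) • (S.e ^ 4 * Form.pull S.pi S.hpi u)) = 0 + m.d := hm'
    rw [pull_add, pull_add, pull_smul, pull_smul, pull_smul, pull_mul, pull_pow, pull_pow,
      pull_pow, S.pi_eU, h9, zero_add]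
  obtain ⟨m', hm1, hm2⟩ := inj hP hFd hε hl hm h8
  exact ⟨m', hm1, hm2⟩

/-- **comparison of coefficients in the level two relation** -/
theorem pairing (hP : S.PP) (hFd : IsDeg 8 S.F) {ε : ℝ} (hε : ε ≠ 0) {l : Form dB}
    (hl : S.b1 = ε • S.b0 + l.d) {a μ : ℝ} {ρ : Form dB} (hρ : Basic S.φ S.hφ.map ρ)
    (hrel : S.b1 ^ 2 = a • S.e ^ 6 + μ • (S.e ^ 2 * (S.G1 + S.G2)) + ρ.d)
    {u : Form dU} (hu : UC S u)
    (hind : ∀ (c1 c2 : ℝ) (m : Form dU), Basic S.φU S.hφU.map m →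
      c1 • S.eU ^ 11 + c2 • (S.eU ^ 7 * u) = m.d → c1 = 0 ∧ c2 = 0)
    {A C t s a7 β7 g4 b4 : ℝ} {c7 q : Form dU}
    (hc1 : c7.sg = c7) (hc2 : c7.d = 0) (hc3 : Basic S.φU S.hφU.map c7)
    (hq1 : q.sg = q) (hq2 : q.d = 0) (hq3 : Basic S.φU S.hφU.map q)
    (hc : Eqv S.hφU.map c7 ((a7 / 128) • S.eU ^ 7 + (β7 / 8) • (S.eU ^ 3 * u)))
    (hq : Eqv S.hφU.map q ((g4 / 16) • S.eU ^ 4 + b4 • u))
    (hpair : Eqv S.hφU.map (t • plin A C S.eU u) (s • (c7 * q))) :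
    t * (2048 * C) = s * (a7 * g4 - 64 / 3 * (a * β7 * b4)) ∧
      t * (128 * A) = s * (a7 * b4 + β7 * g4 - 8 / 3 * (μ * β7 * b4)) := by
  let u' : Bas S.φU S.hφU.map := ⟨u, hu.sg, hu.d, hu.bas⟩
  let e' : Bas S.φU S.hφU.map := ⟨S.eU, S.eU_sg, S.eU_d, S.eU_basic⟩
  let c' : Bas S.φU S.hφU.map := ⟨c7, hc1, hc2, hc3⟩
  let q' : Bas S.φU S.hφU.map := ⟨q, hq1, hq2, hq3⟩
  set Q := Ideal.Quotient.mkₐ ℝ (Exa S.φU S.hφU.map) with hQ
  have hsm : ∀ (r : ℝ) (w : Bas S.φU S.hφU.map), Q (r • w) = r • Q w := fun r w => rfl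
  have r3 : (3 : ℝ) • Q u' ^ 2 + (a / 4) • Q e' ^ 8 + (μ / 2) • (Q e' ^ 4 * Q u') = 0 := by
    obtain ⟨m, hm, hm'⟩ := hu.sq hP hFd hε hl hρ hrel
    have h5 : Q ((3 : ℝ) • u' ^ 2 + (a / 4) • e' ^ 8 + (μ / 2) • (e' ^ 4 * u')) = Q 0 := by
      refine eq_quot S.φU S.hφU.map hm ?_
      refine Eq.trans hm' ?_
      exact (zero_add m.d).symm
    rw [map_zero, map_add, map_add, hsm, hsm, hsm, map_mul, map_pow, map_pow, map_pow] at h5
    exact h5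
  have rc : Q c' = (a7 / 128) • Q e' ^ 7 + (β7 / 8) • (Q e' ^ 3 * Q u') := by
    obtain ⟨m, hm, hm'⟩ := hc
    have h5 : Q c' = Q ((a7 / 128) • e' ^ 7 + (β7 / 8) • (e' ^ 3 * u')) :=
      eq_quot S.φU S.hφU.map hm hm'
    rw [h5, map_add, hsm, hsm, map_mul, map_pow, map_pow]
  have rq : Q q' = (g4 / 16) • Q e' ^ 4 + b4 • Q u' := by
    obtain ⟨m, hm, hm'⟩ := hq
    have h5 : Q q' = Q ((g4 / 16) • e' ^ 4 + b4 • u') := eq_quot S.φU S.hφU.map hm hm'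
    rw [h5, map_add, hsm, hsm, map_pow]
  have rp : t • (A • (Q e' ^ 7 * Q u') + C • Q e' ^ 11) = s • (Q c' * Q q') := by
    obtain ⟨m, hm, hm'⟩ := hpair
    have h5 : Q (t • (A • (e' ^ 7 * u') + C • e' ^ 11)) = Q (s • (c' * q')) :=
      eq_quot S.φU S.hφU.map hm hm'
    rw [hsm, hsm, map_mul Q c' q', map_add, hsm, hsm, map_mul, map_pow, map_pow] at h5
    exact h5
  rw [ring_pair r3 rc rq] at rp
  have h6 : Q ((t * C - s * ((a7 * g4 - 64 / 3 * (a * β7 * b4)) / 2048)) • e' ^ 11 +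
      (t * A - s * ((a7 * b4 + β7 * g4 - 8 / 3 * (μ * β7 * b4)) / 128)) • (e' ^ 7 * u')) =
      Q 0 := by
    rw [map_zero, map_add, hsm, hsm, map_mul, map_pow, map_pow]
    linear_combination (norm := module) rp
  obtain ⟨m, hm, hm'⟩ := quot_eq S.φU S.hφU.map h6
  obtain ⟨h7, h8⟩ := hind _ _ m hm (hm'.trans (zero_add m.d))
  exact ⟨by linarith, by linarith⟩

end

end Vale.Agent.P231.S3F
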