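import Vale.Agent.P231.S3F.End
import Vale.Agent.P231.P1.H8

/-! P231, stage 3: the input from cohomology of the abstract end, from the cohomology of the
two total spaces. -/

set_option linter.unusedSectionVars false
set_option linter.unusedVariables false

open MeasureTheory Set Module Filter Topology
open scoped ContDiff Real

namespace Vale.Agent.P231.S3F

open Fm W H584
open Fm.Form (IsDeg)

noncomputable section

variable {B U M : Type*} {dB : Dif B} {dU : Dif U} {dM : Dif M} {D c : ℝ}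
  {S : Sys dB dU dM 1 D c}

/-- the input from cohomology -/
theorem coh_of (hP : S.PP) (hFd : IsDeg 8 S.F) (hα1 : IsDeg 1 S.α) {a μ : ℝ} {ρ : Form dB}
    (hρ : Basic S.φ S.hφ.map ρ)
    (hrel : S.b1 ^ 2 = a • S.e ^ 6 + μ • (S.e ^ 2 * (S.G1 + S.G2)) + ρ.d) (ha : a ≠ 0)
    {ε : ℝ} (hε : ε ≠ 0) {l : Form dB} (hl : S.b1 = ε • S.b0 + l.d)
    (hαN : S.α.d ^ (15 + 1) = 0) (hV : S.I (S.α * S.α.d ^ 15) ≠ 0)
    (H0 : ∀ w : Form dB, IsDeg 0 w → w.d = 0 → ∃ r : ℝ, w = r • 1)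
    (H2 : ∀ w : Form dB, IsDeg 2 w → w.d = 0 → ∃ κ : Form dB, w = κ.d)
    (H4 : ∀ w : Form dB, IsDeg 4 w → w.d = 0 → ∃ κ : Form dB, w = κ.d)
    (H6 : ∀ w : Form dB, IsDeg 6 w → w.d = 0 → ∃ (r : ℝ) (κ : Form dB), w = r • S.b0 + κ.d)
    (HU0 : ∀ w : Form dU, IsDeg 0 w → w.d = 0 → ∃ r : ℝ, w = r • 1)
    (HU : ∀ j : ℕ, 0 < j → j < 8 → ∀ w : Form dU, IsDeg j w → w.d = 0 → ∃ κ : Form dU, w = κ.d)
    (HU8 : ∀ w : Form dU, IsDeg 8 w → w.d = 0 → ∃ (r : ℝ) (κ : Form dU), w = r • S.Fx + κ.d) :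
    Coh S := by
  have HU1 := HU 1 (by norm_num) (by norm_num)
  have HU2 := HU 2 (by norm_num) (by norm_num)
  have HU3 := HU 3 (by norm_num) (by norm_num)
  have HU4 := HU 4 (by norm_num) (by norm_num)
  have HU5 := HU 5 (by norm_num) (by norm_num)
  have HU6 := HU 6 (by norm_num) (by norm_num)
  have HU7 := HU 7 (by norm_num) (by norm_num)
  obtain ⟨κ', h1', h2', h3', h4', -⟩ :=
    Sys.lev2 hP hFd hl hρ hrel H0 H2 H4 H6 HU1 HU3 HU5 HU7 hε hαN hV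
  obtain ⟨κU, h0, h1, h2, h3, h4⟩ := P1.part6 S hFd h1' h2' h3' h4'
  obtain ⟨hu1, hu2, hu3⟩ := S.uU_good h1 h2 h3
  have hu : UC S (S.uU κU) := ⟨hu1, hu2, hu3, Sys.u_rel h1 h2 h3 h4⟩
  refine ⟨H0, H2, H4, H6, HU1, HU3, HU5, HU7, ?_, ?_⟩
  · intro u hu' c1 c2 m hm h
    obtain ⟨n, hn, hn'⟩ := hu'.unique hP hFd hε hl hu
    refine P1.indep S h1 h2 h3 h4 hρ hrel ha hαN hV hε hl (c₁ := c1) (c₂ := c2)
      ⟨m - c2 • (S.eU ^ 7 * n), Basic.sub hm (Basic.smul _ (Basic.mul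
        (Basic.pow S.eU_basic 7) hn)), ?_⟩
    rw [Form.d_sub, Form.d_smul, Form.d_mul, pow_closed S.eU_d, zero_mul, zero_add,
      pow_even S.eU_sg, ← h, hn', mul_add, smul_add]
    module
  · intro u hu' q hq hqd hqb
    obtain ⟨g, b, m, hm, hm'⟩ := P1.basic8 S h1 h2 h3 (P1.uU_deg S hFd hα1 h0) HU0 HU2 HU4 HU6 HU8
      hq hqd hqb
    obtain ⟨n, hn, hn'⟩ := hu.unique hP hFd hε hl hu'
    refine ⟨g, b, m + b • n, Basic.add hm (Basic.smul _ hn), ?_⟩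
    rw [hm', hn', Form.d_add, Form.d_smul]
    module

end

end Vale.Agent.P231.S3F
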