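import Vale.Agent.P231.L3.Inst7b
import Vale.Agent.P231.S3F.CohA

/-! P231, stage 3: the input from cohomology of the abstract end, for the concrete system. -/

set_option maxSynthPendingDepth 3
set_option linter.unusedSectionVars false
set_option linter.unusedVariables false

open Bundle Manifold Set Filter Module MeasureTheory
open scoped ContDiff Manifold Topology ENNReal Real

namespace Vale.Agent.P231.S3F

noncomputable section

open Vale.Agent.P234 Vale.Agent.P231 Vale.Agent.P231.Fm Vale.Agent.P231.W Vale.Agent.P231.WR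
  Vale.Agent.P231.H766 Vale.Agent.P231.WG Vale.Agent.P231.S2II Vale.Agent.P231.WQ
  Vale.Agent.P231.L3

variable {E : Type*} [NormedAddCommGroup E] [NormedSpace ℝ E]
  {M : Type*} [MetricSpace M] [ChartedSpace E M]
  [RiemannianBundle (fun x : M => TangentSpace 𝓘(ℝ, E) x)]
  {e : ∀ x : M, TangentSpace 𝓘(ℝ, E) x → M}
  [FiniteDimensional ℝ E] [IsManifold 𝓘(ℝ, E) ∞ M]
  [IsContMDiffRiemannianBundle 𝓘(ℝ, E) ∞ E (fun x : M => TangentSpace 𝓘(ℝ, E) x)]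
  [CompactSpace M] [ConnectedSpace M] [IsRiemannianManifold 𝓘(ℝ, E) M]
  (F : Facts e) {D : ℝ} (hD : 0 < D) (hB : InjGE e D) (hdiam : ∀ p q : M, dist p q ≤ D)
  {m n N : ℕ}

include F hD hB hdiam in
/-- the volume is positive -/
theorem vol_pos [MeasurableSpace M] [BorelSpace M] (hN : finrank ℝ E = N + 1) (p : M) :
    0 < (Blaschke.riemannianVolume (N + 1) M univ).toReal := by
  rw [WH.vol_toReal F hD hB hdiam hN p]
  refine (setIntegral_pos_iff_support_of_nonneg_ae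
    (Eventually.of_forall fun ξ => Jac.nonneg _ _) (WH.integrableOn_jac F D p)).2 ?_
  have h1 : (Function.support fun ξ : Eu E => jac e p (fr p ξ)) ∩ Metric.ball 0 D =
      Metric.ball 0 D := by
    refine inter_eq_right.2 fun ξ hξ => ?_
    have h2 : 0 < jac e p (fr p ξ) := jac_pos F hB (by
      rw [nm_fr]
      exact mem_ball_zero_iff.1 hξ)
    exact h2.ne'
  rw [h1]
  exact Metric.measure_ball_pos volume _ hD

section gen

variable [MeasurableSpace M] [BorelSpace M]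
  (hl : ∀ x y : M, dist x y = D → finrank ℝ (H775.Pl e D x y) = 2 * m + 2)
  (hN : finrank ℝ E = N + 1) (hE : N + 1 = (2 * m + 2) * (n + 1))
  {p : M}
  {Pi : TangentSpace 𝓘(ℝ, E) p → TangentSpace 𝓘(ℝ, E) p →L[ℝ] TangentSpace 𝓘(ℝ, E) p}
  {o : TangentSpace 𝓘(ℝ, E) p → Fm.Lam (TangentSpace 𝓘(ℝ, E) p)}
  {ρ : TangentSpace 𝓘(ℝ, E) p → ℝ} {r₀ : ℝ}
  (hJ : FE.LineP e D p m Pi o) (hρ : WE.Rho e D p ρ r₀) {a : ℝ} (ha : a ≠ 0)
  {Lm : Pr e D × ℝ → Pr e D} {Y : Pr e D → E} {ε₀ : ℝ} (hL : PushL F hD hB hdiam Lm Y ε₀)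
  (g : Pr e D × ℝ → M) (hg : ((dPr e D).prod (Dif.lin ℝ)).Map (dM E M) g)
  (hg0 : ∀ b, g (b, 0) = foot b.v) (hg1 : ∀ b t, g (Lm (b, t), 1) = g (b, 1))
  {R : ℝ} (X : Fr e p R) (v0 : UT E M) {r : Eu E → ℝ} {K : Set (Eu E)} (hr : Q.Cut r K)
  (hDR : D < R) (b : OrthonormalBasis (Fin (N + 1)) ℝ (Eu E))

/-- the contact volume is not zero -/
theorem inst_vol_ne :
    (inst F hD hB hdiam hl hN hE hJ hρ ha hL g hg hg0 hg1 X v0 hr hDR b).I
      ((inst F hD hB hdiam hl hN hE hJ hρ ha hL g hg hg0 hg1 X v0 hr hDR b).α *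
        (inst F hD hB hdiam hl hN hE hJ hρ ha hL g hg hg0 hg1 X v0 hr hDR b).α.d ^ N) ≠ 0 := by
  rw [← abs_pos, inst_vol F hD hB hdiam hl hN hE hJ hρ ha hL g hg hg0 hg1 X v0 hr hDR b]
  have h1 := vol_pos F hD hB hdiam hN p
  have h2 : 0 < Real.Gamma (((N : ℝ) + 1) / 2) := Real.Gamma_pos_of_pos (by positivity)
  positivity

/-- the value of the fibre integral of `b₀` -/
theorem inst_k : (inst F hD hB hdiam hl hN hE hJ hρ ha hL g hg hg0 hg1 X v0 hr hDR b).k =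
    2 * FE.kap m a := by
  have hV := inst_vol_ne F hD hB hdiam hl hN hE hJ hρ ha hL g hg hg0 hg1 X v0 hr hDR b
  have h1 : (inst F hD hB hdiam hl hN hE hJ hρ ha hL g hg hg0 hg1 X v0 hr hDR b).P
      ((inst F hD hB hdiam hl hN hE hJ hρ ha hL g hg hg0 hg1 X v0 hr hDR b).b0) =
      (inst F hD hB hdiam hl hN hE hJ hρ ha hL g hg hg0 hg1 X v0 hr hDR b).k • 1 :=
    (inst F hD hB hdiam hl hN hE hJ hρ ha hL g hg hg0 hg1 X v0 hr hDR b).hk0
  have h2 : (inst F hD hB hdiam hl hN hE hJ hρ ha hL g hg hg0 hg1 X v0 hr hDR b).P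
      ((inst F hD hB hdiam hl hN hE hJ hρ ha hL g hg hg0 hg1 X v0 hr hDR b).b0) =
      (2 * FE.kap m a) • 1 :=
    S2II.SL_b0P F hD hB hdiam (two_le hN hE) hl hJ hρ ha
  rw [h2] at h1
  have h3 := congrArg (fun w => (inst F hD hB hdiam hl hN hE hJ hρ ha hL g hg hg0 hg1 X v0 hr hDR
    b).I (w * ((inst F hD hB hdiam hl hN hE hJ hρ ha hL g hg hg0 hg1 X v0 hr hDR b).α *
      (inst F hD hB hdiam hl hN hE hJ hρ ha hL g hg hg0 hg1 X v0 hr hDR b).α.d ^ N))) h1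
  simp only [smul_mul_assoc, one_mul, map_smul, smul_eq_mul] at h3
  exact (mul_right_cancel₀ hV h3).symm

end gen

section seven

variable [MeasurableSpace M] [BorelSpace M]
  (hl : ∀ x y : M, dist x y = D → finrank ℝ (H775.Pl e D x y) = 2 * 3 + 2)
  (hN : finrank ℝ E = 15 + 1) (hE : 15 + 1 = (2 * 3 + 2) * (1 + 1))
  {p : M}
  {Pi : TangentSpace 𝓘(ℝ, E) p → TangentSpace 𝓘(ℝ, E) p →L[ℝ] TangentSpace 𝓘(ℝ, E) p}
  {o : TangentSpace 𝓘(ℝ, E) p → Fm.Lam (TangentSpace 𝓘(ℝ, E) p)}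
  {ρ : TangentSpace 𝓘(ℝ, E) p → ℝ} {r₀ : ℝ}
  (hJ : FE.LineP e D p 3 Pi o) (hρ : WE.Rho e D p ρ r₀) {a : ℝ} (ha : a ≠ 0)
  {Lm : Pr e D × ℝ → Pr e D} {Y : Pr e D → E} {ε₀ : ℝ} (hL : PushL F hD hB hdiam Lm Y ε₀)
  (g : Pr e D × ℝ → M) (hg : ((dPr e D).prod (Dif.lin ℝ)).Map (dM E M) g)
  (hg0 : ∀ b, g (b, 0) = foot b.v) (hg1 : ∀ b t, g (Lm (b, t), 1) = g (b, 1))
  {R : ℝ} (X : Fr e p R) (v0 : UT E M) {r : Eu E → ℝ} {K : Set (Eu E)} (hr : Q.Cut r K)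
  (hDR : D < R) (b : OrthonormalBasis (Fin (15 + 1)) ℝ (Eu E))

/-- **the input from cohomology for the concrete system** -/
theorem coh7 (hP : (inst F hD hB hdiam hl hN hE hJ hρ ha hL g hg hg0 hg1 X v0 hr hDR b).PP)
    {ℓ : Form (dPr e D)} (hℓ : b1P F hD hB hdiam hL hg
      (FE.FF F hD hB hdiam hl hJ hρ a) = (-1 : ℝ) • b0P F hD hB hdiam
      (FE.FF F hD hB hdiam hl hJ hρ a) + ℓ.d)
    {a' μ : ℝ} {σ : Form (dPr e D)} (hσ : Basic Lm hL.flow.map σ)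
    (hrel : b1P F hD hB hdiam hL hg (FE.FF F hD hB hdiam hl hJ hρ a) ^ 2 = a' • eP e D ^ 6 +
        μ • (eP e D ^ 2 * GsP F hD hB hdiam hg (FE.FF F hD hB hdiam hl hJ hρ a)) + σ.d)
    (ha' : a' ≠ 0) :
    Coh (inst F hD hB hdiam hl hN hE hJ hρ ha hL g hg hg0 hg1 X v0 hr hDR b) := by
  have h2 : 2 ≤ finrank ℝ E := by omega
  have hn0 : finrank ℝ E - 1 = 15 := by omega
  have hG := CoC.gen_UT (CoZ.gen_FF F hD hB hdiam hl hJ hρ ha h2)
  rw [hn0] at hG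
  have hA := inst_ang F hD hB hdiam hl hN hE hJ hρ ha
  have hψb : (2 * FE.kap 3 a)⁻¹ • b0P F hD hB hdiam (FE.FF F hD hB hdiam hl hJ hρ a) =
      (2 * FE.kap 3 a)⁻¹ • b0P F hD hB hdiam (FE.FF F hD hB hdiam hl hJ hρ a) +
        (0 : Form (dPr e D)).d := by
    rw [Form.d_zero, add_zero]
  refine coh_of hP (S2II.isDeg_FF F hD hB hdiam hl hJ hρ a) CV.isDeg_alpha (ρ := σ) hσ hrel ha'
    (ε := -1) (by norm_num) (l := ℓ) hℓ
    (inst_α F hD hB hdiam hl hN hE hJ hρ ha hL g hg hg0 hg1 X v0 hr hDR b)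
    (inst_vol_ne F hD hB hdiam hl hN hE hJ hρ ha hL g hg hg0 hg1 X v0 hr hDR b)
    ?_ ?_ ?_ ?_ ?_ ?_ ?_
  · exact CoC.hs_zero hG _ _ (by norm_num) hA (by norm_num)
  · exact CoC.hs_exact hG _ _ (by norm_num) hA (by norm_num) (by norm_num) (by norm_num)
  · exact CoC.hs_exact hG _ _ (by norm_num) hA (by norm_num) (by norm_num) (by norm_num)
  · exact CoC.hs_mid hG _ _ (by norm_num) hA (by norm_num) (by norm_num) hψb
  · exact fun w hw hwd => hG.zero (by norm_num) hwd hw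
  · intro j hj hj8 w hw hwd
    exact hG.exact (by omega) (fun h => by
      have := Nat.le_of_dvd hj h
      omega) hwd hw
  · exact fun w hw hwd => hG.top (by norm_num) (by norm_num) hwd hw

end seven

end

end Vale.Agent.P231.S3F
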