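import Vale.Agent.P231.S3NT.Main
import Vale.Agent.P231.L3.Seven

/-! P231, stage 3, the end: the arithmetic, for all signs. -/

set_option maxSynthPendingDepth 3
set_option linter.unusedSectionVars false
set_option linter.unusedVariables false

namespace Vale.Agent.P231.S3F

noncomputable section

/-- `E ≤ 78` for all signs of the constants `b = ± 3` and `γ = ± 6` -/
theorem E_all {σ al g b γ : ℝ} {a : ℚ} {N M m P : ℤ} (hσ : σ = 1 ∨ σ = -1) (hb : b = 3 ∨ b = -3)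
    (hγ : γ = 6 ∨ γ = -6) (hN : |al| * N = 2) (hP : al + M * m / 2 = P)
    (h1 : a * g - 64 / 3 * (b * al * (2 * γ - 4 * M)) = σ * (1365 / 4 * M * al))
    (h2 : b * a + (2 * γ - 4 * M) * g - 4 / 3 * (b * M * (2 * γ - 4 * M)) =
      σ * (85 / 4 * M ^ 2 - 255 * al)) :
    ((N : ℝ) ^ 3 * M ^ 2 + 24 * N ^ 2) / 16 ≤ 78 := by
  have hσ' : -σ = 1 ∨ -σ = -1 := by
    rcases hσ with h | h
    · right; rw [h]
    · left; rw [h]; norm_num
  rcases hγ with rfl | rfl
  · rcases hb with rfl | rfl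
    · exact S3NT.E_le (σ := σ) (g := g) (a := a) hσ hN hP (by linear_combination h1)
        (by linear_combination h2)
    · exact S3NT.E_le (σ := -σ) (g := -g) (a := a) hσ' hN hP (by linear_combination -h1)
        (by linear_combination -h2)
  · have hP' : al + ((-M : ℤ) : ℝ) * ((-m : ℤ) : ℝ) / 2 = P := by
      push_cast
      linarith
    have hM : ((-M : ℤ) : ℝ) = -(M : ℝ) := by push_cast; ring
    have key : ((N : ℝ) ^ 3 * ((-M : ℤ) : ℝ) ^ 2 + 24 * N ^ 2) / 16 ≤ 78 := by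
      rcases hb with rfl | rfl
      · exact S3NT.E_le (σ := σ) (g := -g) (a := a) (M := -M) (m := -m) hσ hN hP'
          (by rw [hM]; linear_combination -h1) (by rw [hM]; linear_combination h2)
      · exact S3NT.E_le (σ := -σ) (g := g) (a := a) (M := -M) (m := -m) hσ' hN hP'
          (by rw [hM]; linear_combination h1) (by rw [hM]; linear_combination -h2)
    rwa [hM, neg_sq] at key

/-- the Weinstein number is bounded by `E` -/
theorem bound_of_E {al : ℝ} {N M : ℤ} (hN : |al| * N = 2)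
    (hE : ((N : ℝ) ^ 3 * M ^ 2 + 24 * N ^ 2) / 16 ≤ 78) :
    |(M : ℝ) ^ 2 - 12 * al| / (2 * |al| ^ 3) ≤ 78 := by
  have hal : 0 < |al| := by
    refine lt_of_le_of_ne (abs_nonneg _) fun h => ?_
    rw [← h, zero_mul] at hN
    norm_num at hN
  have hNr : (N : ℝ) = 2 / |al| := by
    field_simp
    linarith
  have h3 : |(M : ℝ) ^ 2 - 12 * al| ≤ (M : ℝ) ^ 2 + 12 * |al| := by
    refine (abs_sub _ _).trans ?_
    rw [abs_pow, sq_abs, abs_mul, abs_of_pos (show (0 : ℝ) < 12 by norm_num)]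
  refine le_trans ?_ hE
  rw [hNr]
  have h4 : ((2 / |al|) ^ 3 * (M : ℝ) ^ 2 + 24 * (2 / |al|) ^ 2) / 16 =
      ((M : ℝ) ^ 2 + 12 * |al|) / (2 * |al| ^ 3) := by
    field_simp
    ring
  rw [h4]
  gcongr

/-- `(4 E - n d²) n² = 96` forces `n ∣ 4` -/
theorem dvd_four {n E d : ℤ} (h : (4 * E - n * d ^ 2) * n ^ 2 = 96) : n ∣ 4 := by
  have h1 : n ^ 2 ∣ 96 := ⟨4 * E - n * d ^ 2, by linarith⟩
  have h2 : n ^ 2 ≤ 96 := Int.le_of_dvd (by norm_num) h1
  have h3 : |n| ≤ 9 := by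
    by_contra h4
    have h5 : 10 ≤ |n| := by omega
    have h6 : |n| ^ 2 = n ^ 2 := sq_abs n
    nlinarith
  obtain ⟨h4, h5⟩ := abs_le.1 h3
  interval_cases n
  all_goals revert h1
  all_goals decide

/-- from `E, d` integral and `2 α = - n` integral: `2 / |α|` is integral -/
theorem exists_N {al : ℝ} {n E d : ℤ} (hal : al = -n / 2)
    (h : (4 * E - n * d ^ 2) * n ^ 2 = 96) : ∃ N : ℤ, |al| * N = 2 := by
  obtain ⟨k, hk⟩ := dvd_four h
  refine ⟨|k|, ?_⟩
  have h1 : (|k| : ℤ) * |n| = 4 := by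
    rw [← abs_mul, mul_comm, ← hk]
    norm_num
  have h2 : ((|k| : ℤ) : ℝ) * |(n : ℝ)| = 4 := by
    rw [← Int.cast_abs]
    exact_mod_cast h1
  rw [hal, abs_div, abs_neg, abs_of_pos (show (0 : ℝ) < 2 by norm_num)]
  linarith

/-- **the end of Stage 3, arithmetic**: the bound of the Weinstein number in the normalisation
`a = α κ²`, `μ = M κ / 2` -/
theorem weinstein_le {κ al σ g b γ : ℝ} {a : ℚ} {N M m P : ℤ} (hκ : κ ≠ 0)
    (hσ : σ = 1 ∨ σ = -1) (hb : b = 3 ∨ b = -3)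
    (hγ : γ = 6 ∨ γ = -6) (hN : |al| * N = 2) (hP : al + M * m / 2 = P)
    (h1 : a * g - 64 / 3 * (b * al * (2 * γ - 4 * M)) = σ * (1365 / 4 * M * al))
    (h2 : b * a + (2 * γ - 4 * M) * g - 4 / 3 * (b * M * (2 * γ - 4 * M)) =
      σ * (85 / 4 * M ^ 2 - 255 * al)) :
    |2 * (-3 / (al * κ ^ 2) ^ 2 + (M * κ / 2) ^ 2 / (al * κ ^ 2) ^ 3)| * κ ^ 4 ≤ 78 := by
  have hal : al ≠ 0 := by
    rintro rfl
    rw [abs_zero, zero_mul] at hN
    norm_num at hN
  rw [L3.coef_norm hκ hal]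
  exact bound_of_E hN (E_all hσ hb hγ hN hP h1 h2)

end

end Vale.Agent.P231.S3F
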