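import Vale.Agent.P231.S3F.Ring
import Vale.Agent.P231.S3F.Num

/-! P231, stage 3: the abstract end. From the level two relation and the integrality statements to
the bound of the Weinstein number. -/

set_option linter.unusedSectionVars false
set_option linter.unusedVariables false

open MeasureTheory Set Module Filter Topology
open scoped ContDiff Real

namespace Vale.Agent.P231.S3F

open Fm W H584
open Fm.Form (IsDeg)

noncomputable section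

variable {B U M : Type*} {dB : Dif B} {dU : Dif U} {dM : Dif M} {D c : ℝ}
  {S : Sys dB dU dM 1 D c}

/-- `Fb = Fx + exact` -/
theorem Fb_eq (S : Sys dB dU dM 1 D c) : S.Fb = S.Fx + S.B0.d := by
  rw [S.pthB0.db]
  abel

/-- `u = Fx + exact` -/
theorem UC.eq_Fx {u : Form dU} (hu : UC S u) : ∃ m : Form dU, u = S.Fx + m.d := by
  obtain ⟨m1, -, h1⟩ := hu.rel
  have h2 := S.G1_eq S.hF
  have h3 : S.G2 = Form.pull S.pi S.hpi S.Fb +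
      (Form.pull S.σ S.hσ (Form.K (Form.pull S.g S.hg S.F))).d := by
    rw [← S.σG1, h2, pull_add, S.σBx, Form.pull_d]
  set κ1 := Form.K (Form.pull S.g S.hg S.F) with hκ1
  set κ2 := Form.pull S.σ S.hσ κ1 with hκ2
  set n : Form dB := m1 + (1 / 2 : ℝ) • (κ1 + κ2 + Form.pull S.pi S.hpi S.B0) with hn
  have h4 : Form.pull S.pi S.hpi (u - S.Fx) = n.d := by
    have h5 : Form.pull S.pi S.hpi S.Fb = Form.pull S.pi S.hpi S.Fx +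
        (Form.pull S.pi S.hpi S.B0).d := by
      rw [Fb_eq, pull_add, Form.pull_d]
    rw [pull_sub, h1, h3, h5, h2, hn, Form.d_add, Form.d_smul, Form.d_add, Form.d_add]
    module
  have h6 : S.b0 * Form.pull S.pi S.hpi (u - S.Fx) = (S.b0 * n).d := by
    rw [h4, Form.d_mul, S.b0_d, zero_mul, zero_add, S.b0_sg]
  have h7 := congrArg S.P h6
  have h8 : S.P S.b0 = S.k • 1 := S.hk0
  rw [S.hPm, h8, S.hPd, smul_mul_assoc, one_mul] at h7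
  refine ⟨S.k⁻¹ • S.P (S.b0 * n), ?_⟩
  rw [Form.d_smul, ← h7, smul_smul, inv_mul_cancel₀ S.hk, one_smul]
  abel

/-- the Euler form is exact -/
theorem eU_pow_exact (S : Sys dB dU dM 1 D c) (k : ℕ) : ∃ m : Form dU, S.eU ^ (k + 1) = m.d := by
  refine ⟨((2 * D)⁻¹ • S.α) * S.eU ^ k, ?_⟩
  rw [Form.d_mul, Form.d_smul, pow_closed S.eU_d, mul_zero, add_zero, pow_succ']
  rfl

/-- the coefficient of `u` from a functional -/
theorem coef_of_fun {κ g4 b4 : ℝ} (hκ : 0 < κ) {u q : Form dU} (hu : UC S u)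
    (hq : Eqv S.hφU.map q ((g4 / 16) • S.eU ^ 4 + b4 • u)) {L : Form dU →ₗ[ℝ] ℝ}
    (hL : ∀ w : Form dU, L w.d = 0) (hx : L S.Fx ^ 2 = κ ^ 2)
    (hv : L q ^ 2 = 9 * κ ^ 8) : b4 = 3 * κ ^ 3 ∨ b4 = -3 * κ ^ 3 := by
  obtain ⟨m1, -, h1⟩ := hq
  obtain ⟨m2, h2⟩ := hu.eq_Fx
  obtain ⟨m3, h3⟩ := eU_pow_exact S 3
  have h4 : L q = b4 * L S.Fx := by
    rw [h1, h3, h2, map_add, map_add, map_smul, hL, hL, map_smul, map_add, hL, smul_zero,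
      zero_add, add_zero, add_zero, smul_eq_mul]
  rw [h4, mul_pow, hx] at hv
  have h5 : (b4 - 3 * κ ^ 3) * (b4 + 3 * κ ^ 3) = 0 := by
    have h6 : b4 ^ 2 = 9 * κ ^ 6 := by
      have h7 : κ ^ 2 ≠ 0 := by positivity
      have h8 : κ ^ 2 * b4 ^ 2 = κ ^ 2 * (9 * κ ^ 6) := by linear_combination hv
      exact mul_left_cancel₀ h7 h8
    linear_combination h6
  rcases mul_eq_zero.1 h5 with h | h
  · left; linarith
  · right; linarith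

/-- the statements at level two, in the normalisation `u = κ (class)`: the fibre integral of the
doubled `τ` is `± c₇(E') q`, `c₇(E') = A' e~⁷ + (2 γ - 4 M) e~³ u` with `A'` rational and `γ = ± 6`,
and the value of `q` on an eight-dimensional cycle is `± 3` -/
structure LevelTwo (S : Sys dB dU dM 1 D c) (a μ κ : ℝ) (c7 q : Form dU) (a7 : ℚ) (γ s : ℝ)
    (L : Form dU →ₗ[ℝ] ℝ) : Prop where
  hγ : γ = 6 ∨ γ = -6
  hs : s = 1 ∨ s = -1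
  c_sg : c7.sg = c7
  c_d : c7.d = 0
  c_bas : Basic S.φU S.hφU.map c7
  q_deg : IsDeg 8 q
  q_d : q.d = 0
  q_bas : Basic S.φU S.hφU.map q
  c_eq : ∀ u, UC S u → Eqv S.hφU.map c7 (((a7 : ℝ) / 128) • S.eU ^ 7 +
    ((2 * γ - 4 * (2 * μ / κ)) / κ / 8) • (S.eU ^ 3 * u))
  pair : Eqv S.hφU.map (S.P (Form.K (tau (a / 2 - μ ^ 2 / 6)
        (-(μ * a / 12)) (cflow S.φ) (map_cflow S.hφ.map) (2 * (2 * D)) (pr S.αB) S.Gc)))
    (s • (c7 * q))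
  L_d : ∀ w : Form dU, L w.d = 0
  L_x : L S.Fx ^ 2 = κ ^ 2
  L_q : L q ^ 2 = 9 * κ ^ 8

/-- the input from cohomology -/
structure Coh (S : Sys dB dU dM 1 D c) : Prop where
  H0 : ∀ w : Form dB, IsDeg 0 w → w.d = 0 → ∃ r : ℝ, w = r • 1
  H2 : ∀ w : Form dB, IsDeg 2 w → w.d = 0 → ∃ κ : Form dB, w = κ.d
  H4 : ∀ w : Form dB, IsDeg 4 w → w.d = 0 → ∃ κ : Form dB, w = κ.d
  H6 : ∀ w : Form dB, IsDeg 6 w → w.d = 0 → ∃ (r : ℝ) (κ : Form dB), w = r • S.b0 + κ.d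
  HU1 : ∀ w : Form dU, IsDeg 1 w → w.d = 0 → ∃ κ : Form dU, w = κ.d
  HU3 : ∀ w : Form dU, IsDeg 3 w → w.d = 0 → ∃ κ : Form dU, w = κ.d
  HU5 : ∀ w : Form dU, IsDeg 5 w → w.d = 0 → ∃ κ : Form dU, w = κ.d
  HU7 : ∀ w : Form dU, IsDeg 7 w → w.d = 0 → ∃ κ : Form dU, w = κ.d
  ind : ∀ u, UC S u → ∀ (c1 c2 : ℝ) (m : Form dU), Basic S.φU S.hφU.map m →
      c1 • S.eU ^ 11 + c2 • (S.eU ^ 7 * u) = m.d → c1 = 0 ∧ c2 = 0
  deg8 : ∀ u, UC S u → ∀ q : Form dU, IsDeg 8 q → q.d = 0 → Basic S.φU S.hφU.map q →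
    ∃ g b : ℝ, Eqv S.hφU.map q (g • S.eU ^ 4 + b • u)

/-- **the abstract end of stage 3** -/
theorem end7 (hP : S.PP) (hFd : IsDeg 8 S.F) (hC : Coh S) {a μ : ℝ} {ρ : Form dB}
    (hρ : Basic S.φ S.hφ.map ρ)
    (hrel : S.b1 ^ 2 = a • S.e ^ 6 + μ • (S.e ^ 2 * (S.G1 + S.G2)) + ρ.d)
    {ε : ℝ} (hε : ε ^ 2 = 1) {l : Form dB} (hl : S.b1 = ε • S.b0 + l.d)
    {N : ℕ} (hαN : S.α.d ^ (N + 1) = 0) (hV : S.I (S.α * S.α.d ^ N) ≠ 0)
    {κ : ℝ} (hκ : 0 < κ) (hk : S.k ^ 2 = 4 * κ ^ 2)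
    {c7 q : Form dU} {a7 : ℚ} {γ s : ℝ} {L : Form dU →ₗ[ℝ] ℝ}
    (hL : LevelTwo S a μ κ c7 q a7 γ s L)
    (hM : ∃ n : ℤ, 2 * μ / κ = n) (hPm : ∃ n m : ℤ, a / κ ^ 2 = n + μ / κ * m)
    (hN : ∃ n : ℤ, |a / κ ^ 2| * n = 2) :
    |2 * (-3 / a ^ 2 + μ ^ 2 / a ^ 3)| * κ ^ 4 ≤ 78 := by
  have hε0 : ε ≠ 0 := by
    rintro rfl
    norm_num at hε
  obtain ⟨κU, h1, h2, h3, h4, hu1, hu2, hu3, hu4, -, m0, hm0, hm0'⟩ :=
    Sys.lev2 hP hFd hl hρ hrel hC.H0 hC.H2 hC.H4 hC.H6 hC.HU1 hC.HU3 hC.HU5 hC.HU7 hε0 hαN hV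
  have hu : UC S (S.uU κU) := ⟨hu1, hu2, hu3, hu4⟩
  set u := S.uU κU with hud
  obtain ⟨g, b4, hq⟩ := hC.deg8 u hu q hL.q_deg hL.q_d hL.q_bas
  have hq' : Eqv S.hφU.map q ((16 * g / 16) • S.eU ^ 4 + b4 • u) := by
    rwa [mul_div_cancel_left₀ g (by norm_num : (16 : ℝ) ≠ 0)]
  obtain ⟨M, hM⟩ := hM
  obtain ⟨n1, m1, hPm⟩ := hPm
  obtain ⟨N0, hN⟩ := hN
  have hpair : Eqv S.hφU.map ((ε * S.k / 2) • plin (255 / 64 * (a / 2 - μ ^ 2 / 6))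
      (4095 / 1024 * (-(μ * a / 12))) S.eU u) (s • (c7 * q)) := by
    have e1 : Eqv S.hφU.map ((ε * S.k / 2) • plin (255 / 64 * (a / 2 - μ ^ 2 / 6))
      (4095 / 1024 * (-(μ * a / 12))) S.eU u) (S.P (Form.K (tau (a / 2 - μ ^ 2 / 6)
        (-(μ * a / 12)) (cflow S.φ) (map_cflow S.hφ.map) (2 * (2 * D)) (pr S.αB) S.Gc))) :=
      ⟨-m0, Basic.neg hm0, by rw [hm0', Form.d_neg]; abel⟩
    exact e1.trans hL.pair
  obtain ⟨p1, p2⟩ := pairing hP hFd hε0 hl hρ hrel hu (hC.ind u hu) hL.c_sg hL.c_d hL.c_bas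
    (hL.q_deg.sg_of_even (by decide)) hL.q_d hL.q_bas (a7 := a7)
    (β7 := (2 * γ - 4 * (2 * μ / κ)) / κ) (hL.c_eq u hu) hq' hpair
  have hb4 := coef_of_fun hκ hu hq' hL.L_d hL.L_x hL.L_q
  obtain ⟨b, hb, hb'⟩ : ∃ b : ℝ, (b = 3 ∨ b = -3) ∧ b4 = b * κ ^ 3 := by
    rcases hb4 with h | h
    · exact ⟨3, Or.inl rfl, h⟩
    · exact ⟨-3, Or.inr rfl, h⟩
  obtain ⟨t, ht, ht'⟩ : ∃ t : ℝ, (t = 1 ∨ t = -1) ∧ ε * S.k = 2 * (t * κ) := by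
    have h5 : (ε * S.k - 2 * κ) * (ε * S.k + 2 * κ) = 0 := by
      have h6 : (ε * S.k) ^ 2 = 4 * κ ^ 2 := by rw [mul_pow, hε, hk, one_mul]
      linear_combination h6
    rcases mul_eq_zero.1 h5 with h | h
    · exact ⟨1, Or.inl rfl, by linarith⟩
    · exact ⟨-1, Or.inr rfl, by linarith⟩
  have hκ0 := hκ.ne'
  have ha0 : ∃ al : ℝ, a / κ ^ 2 = al ∧ a = al * κ ^ 2 := ⟨a / κ ^ 2, rfl, by field_simp⟩
  obtain ⟨al, hal, ha⟩ := ha0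
  have hμ : μ = M * κ / 2 := by
    rw [div_eq_iff hκ0] at hM
    linarith
  have hMr : 2 * μ / κ = M := hM
  obtain ⟨g', hg⟩ : ∃ g' : ℝ, 16 * g = g' * κ ^ 4 := ⟨16 * g / κ ^ 4, by field_simp⟩
  have hst : (-(t * s)) = 1 ∨ (-(t * s)) = -1 := by
    rcases ht with rfl | rfl <;> rcases hL.hs with h | h <;> rw [h] <;> norm_num
  have hss : s * s = 1 := by rcases hL.hs with h | h <;> rw [h] <;> norm_num
  rw [hMr, hg, hb', ht', ha, hμ] at p1 p2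
  have q1 : (a7 : ℝ) * g' - 64 / 3 * (b * al * (2 * γ - 4 * M)) =
      -(t * s) * (1365 / 4 * M * al) := by
    have e1 : κ ^ 4 ≠ 0 := by positivity
    refine mul_left_cancel₀ e1 ?_
    have e2 : (2 * γ - 4 * (M : ℝ)) / κ * (b * κ ^ 3) = (2 * γ - 4 * M) * b * κ ^ 2 := by
      field_simp
    have e3 : al * κ ^ 2 * ((2 * γ - 4 * (M : ℝ)) / κ) * (b * κ ^ 3) =
        al * κ ^ 4 * ((2 * γ - 4 * M) * b) := by
      rw [mul_assoc, e2]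
      ring
    rw [e3] at p1
    linear_combination (-s) * p1 + ((a7 : ℝ) * g' * κ ^ 4 -
      64 / 3 * (al * κ ^ 4 * ((2 * γ - 4 * M) * b))) * (-hss)
  have q2 : b * (a7 : ℝ) + (2 * γ - 4 * M) * g' - 4 / 3 * (b * M * (2 * γ - 4 * M)) =
      -(t * s) * (85 / 4 * M ^ 2 - 255 * al) := by
    have e1 : κ ^ 3 ≠ 0 := by positivity
    refine mul_left_cancel₀ e1 ?_
    have e2 : (2 * γ - 4 * (M : ℝ)) / κ * (g' * κ ^ 4) = (2 * γ - 4 * M) * g' * κ ^ 3 := by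
      field_simp
    have e3 : M * κ / 2 * ((2 * γ - 4 * (M : ℝ)) / κ) * (b * κ ^ 3) =
        M / 2 * ((2 * γ - 4 * M) * b) * κ ^ 3 := by
      field_simp
    rw [e2, e3] at p2
    linear_combination (-s) * p2 + ((a7 : ℝ) * (b * κ ^ 3) + (2 * γ - 4 * M) * g' * κ ^ 3 -
      8 / 3 * (M / 2 * ((2 * γ - 4 * M) * b) * κ ^ 3)) * (-hss)
  rw [hal] at hN hPm
  rw [ha, hμ]
  exact weinstein_le (a := a7) (N := N0) (M := M) (m := -m1) (P := n1) hκ0 hst hb hL.hγ hN (by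
    rw [hPm, hμ]
    push_cast
    field_simp
    ring) q1 q2

end

end Vale.Agent.P231.S3F
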