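import Vale.Agent.P231.S3F.Fin7
import Vale.Agent.P231.P1.PPStd
import Vale.Agent.P231.S3Y.Marg
import Vale.Agent.P231.S3S.B1

/-! P231, stage 3: the volume inequality in the Cayley plane case, from the level two relation and
the integrality statements for the standard family. -/

set_option maxSynthPendingDepth 3
set_option linter.unusedSectionVars false
set_option linter.unusedVariables false

open Bundle Manifold Set Filter Module MeasureTheory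
open scoped ContDiff Manifold Topology ENNReal Real

namespace Vale.Agent.P231.S3F

noncomputable section

open Vale.Agent.P234 Vale.Agent.P231 Vale.Agent.P231.Fm Vale.Agent.P231.W Vale.Agent.P231.WR
  Vale.Agent.P231.H766 Vale.Agent.P231.WG Vale.Agent.P231.S2II Vale.Agent.P231.WQ
  Vale.Agent.P231.L3

variable {E : Type*} [NormedAddCommGroup E] [NormedSpace ℝ E]
  {M : Type*} [MetricSpace M] [ChartedSpace E M]
  [RiemannianBundle (fun x : M => TangentSpace 𝓘(ℝ, E) x)]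
  {e : ∀ x : M, TangentSpace 𝓘(ℝ, E) x → M}
  [FiniteDimensional ℝ E] [IsManifold 𝓘(ℝ, E) ∞ M]
  [IsContMDiffRiemannianBundle 𝓘(ℝ, E) ∞ E (fun x : M => TangentSpace 𝓘(ℝ, E) x)]
  [CompactSpace M] [ConnectedSpace M] [IsRiemannianManifold 𝓘(ℝ, E) M]
  (F : Facts e) {D : ℝ} (hD : 0 < D) (hB : InjGE e D) (hdiam : ∀ p q : M, dist p q ≤ D)

variable [MeasurableSpace M] [BorelSpace M]
  (hl : ∀ x y : M, dist x y = D → finrank ℝ (H775.Pl e D x y) = 2 * 3 + 2)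
  (hN : finrank ℝ E = 15 + 1) (hE : 15 + 1 = (2 * 3 + 2) * (1 + 1))

include F hN hl in
/-- **the volume inequality, Cayley plane case**, for the standard data: the base point `p` is
chosen last, the radius `r` can be as small as wanted -/
theorem volume_seven_std (hD' : 0 < D) [Nonempty M]
    (hInt : ∀ {ι : Type} [Fintype ι] [DecidableEq ι] {Z δ : ι → UT E M → E} {ε : ℝ}
      {τ : ι ≃ ι} (h : S2N.Fam F hD hB hdiam (2 * 3 + 1) Z δ ε)
      (_ : ∀ i v, Z (τ i) v = Z i (ng v)) (_ : ∀ i v, δ (τ i) v = δ i (ng v)) {ε₀ : ℝ}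
      (hL : PushL F hD hB hdiam (S2N.Lam hl h) (S2N.Yb F hD hB hdiam Z δ ε) ε₀)
      (_ : S3Y.EnLt e (S2N.Lam hl h) (S2N.Yb F hD hB hdiam Z δ ε) ε₀),
      ∃ r₁ : ℝ, 0 < r₁ ∧ ∀ r : ℝ, 0 < r → r ≤ r₁ → ∀ {G : Pr e D × ℝ → M}
        (hG : S3S.StdP e (S2N.Lam hl h) (S2N.Yb F hD hB hdiam Z δ ε) r G)
        (_ : S3Y.Margin (S2N.Lam hl h) G),
        ∃ p : M, ∀ {o : TangentSpace 𝓘(ℝ, E) p → Fm.Lam (TangentSpace 𝓘(ℝ, E) p)}
          {ρ : TangentSpace 𝓘(ℝ, E) p → ℝ} {r₀ : ℝ}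
          (hJ : FE.LineP e D p 3 (FE.PiP e D p) o) (hρ : WE.Rho e D p ρ r₀)
          {R : ℝ} (X : Fr e p R) (v0 : UT E M) {s : Eu E → ℝ} {K : Set (Eu E)} (hs : Q.Cut s K)
          (_ : ∀ y z : Eu E, (inner ℝ y z : ℝ) = 0 → fderiv ℝ s y z = 0)
          (hDR : D < R) (b : OrthonormalBasis (Fin (15 + 1)) ℝ (Eu E))
          (_ : (inst F hD hB hdiam hl hN hE hJ hρ one_ne_zero hL (S3S.polX hl h G)
            (S3S.map_polX hl h hG) (S3S.polX_zero hl h hG) (S3S.polX_one hl h hG) X v0 hs hDR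
              b).PP)
          {ℓ : Form (dPr e D)} (_ : b1P F hD hB hdiam hL (S3S.map_polX hl h hG)
              (FE.FF F hD hB hdiam hl hJ hρ 1) =
              (-1 : ℝ) • b0P F hD hB hdiam (FE.FF F hD hB hdiam hl hJ hρ 1) + ℓ.d)
          {a' μ : ℝ} {σ : Form (dPr e D)} (_ : Basic (S2N.Lam hl h) hL.flow.map σ)
          (_ : b1P F hD hB hdiam hL (S3S.map_polX hl h hG)
                (FE.FF F hD hB hdiam hl hJ hρ 1) ^ 2 =
              a' • eP e D ^ 6 + μ • (eP e D ^ 2 * GsP F hD hB hdiam (S3S.map_polX hl h hG)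
                (FE.FF F hD hB hdiam hl hJ hρ 1)) + σ.d) (_ : a' ≠ 0),
          (∃ (c7 q : Form (dUT E M)) (a7 : ℚ) (γ s' : ℝ) (L : Form (dUT E M) →ₗ[ℝ] ℝ),
            LevelTwo (inst F hD hB hdiam hl hN hE hJ hρ one_ne_zero hL (S3S.polX hl h G)
              (S3S.map_polX hl h hG) (S3S.polX_zero hl h hG) (S3S.polX_one hl h hG) X v0 hs hDR
                b) a' μ (FE.kap 3 1) c7 q a7 γ s' L) ∧
          ∃ (al : ℝ) (n A m P : ℤ), a' = al * FE.kap 3 1 ^ 2 ∧ μ = A * FE.kap 3 1 / 2 ∧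
            |al| * n = 2 ∧ al + A * m / 2 = P) :
    Blaschke.riemannianVolume (15 + 1) M univ ≤
      ENNReal.ofReal (Blaschke.modelVolume 15 7 D) := by
  have hE : 15 + 1 = (2 * 3 + 2) * (1 + 1) := by norm_num
  obtain ⟨ι, _, _, Z, δ, ε, τ, h, -, hX, hδ⟩ := S2N.exists_fam F hD hB hdiam
    (l := 2 * 3 + 1) hl
  obtain ⟨ε₀, hL, hen⟩ := S3Y.exists_pushL_en hl h
  obtain ⟨r₁, hr₁, hInt'⟩ := hInt h hX hδ hL hen
  obtain ⟨ε₁, hε₁, hb1⟩ := S3S.exists_b1_std hl h hL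
  have hε₀ : 0 < ε₀ := hL.pos
  set r : ℝ := min (min r₁ (1 / 12)) (min (ε₀ / 3) (ε₁ / 2)) with hr
  have hr0 : 0 < r := by
    refine lt_min (lt_min hr₁ (by norm_num)) (lt_min (by positivity) (by positivity))
  have h1 : r ≤ r₁ := (min_le_left _ _).trans (min_le_left _ _)
  have h2 : r ≤ 1 / 12 := (min_le_left _ _).trans (min_le_right _ _)
  have h3 : r ≤ ε₀ / 3 := (min_le_right _ _).trans (min_le_left _ _)
  have h4 : r ≤ ε₁ / 2 := (min_le_right _ _).trans (min_le_right _ _)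
  obtain ⟨G, hG, hm⟩ := S3Y.exists_stdP_margin hl hL hen hr0 (by linarith) (by linarith)
  obtain ⟨p, hp⟩ := hInt' r hr0 h1 hG hm
  obtain ⟨o, hJ⟩ := FE.exists_line F hD hB hdiam (n := 3) hl (by omega) p
  obtain ⟨ρ, r₀, hρ⟩ := exists_rho (E := E) (p := p) hD
  have hg0 := S3S.polX_zero hl h hG
  have hg1 := S3S.polX_one hl h hG
  obtain ⟨ℓ, hℓ⟩ := hb1 r G hG (by linarith) _ (FE.FF_d F hD hB hdiam hl hJ hρ 1)
  have hℓ' : b1P F hD hB hdiam hL (S3S.map_polX hl h hG) (FE.FF F hD hB hdiam hl hJ hρ 1) =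
          (-1 : ℝ) • b0P F hD hB hdiam (FE.FF F hD hB hdiam hl hJ hρ 1) + ℓ.d := hℓ
  obtain ⟨a', μ, σ, hσ, hrel⟩ := rel_seven F hD hB hdiam hl hN hJ hρ one_ne_zero hL
    (S3S.polX hl h G) (S3S.map_polX hl h hG) hg0 hg1 rfl hℓ'
  have hrel' : b1P F hD hB hdiam hL (S3S.map_polX hl h hG)
      (FE.FF F hD hB hdiam hl hJ hρ 1) ^ 2 = a' • eP e D ^ 6 +
        μ • (eP e D ^ 2 * GsP F hD hB hdiam (S3S.map_polX hl h hG)
          (FE.FF F hD hB hdiam hl hJ hρ 1)) + σ.d := hrel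
  have ha' := a_ne_seven F hD hB hdiam hl hN hJ hρ one_ne_zero hL (S3S.polX hl h G)
    (S3S.map_polX hl h hG) hg0 hg1 hℓ' hσ hrel'
  have hnt : Nontrivial E := nontrivial_of_finrank_pos (R := ℝ) (by omega)
  obtain ⟨v0, -⟩ := S2II.exists_foot (E := E) p
  obtain ⟨X⟩ := nonempty_fr F hD hB p (D + 1)
  obtain ⟨s, K, hs, hrad⟩ := exists_radCut (V := Eu E)
  have hDR : D < D + 1 := lt_add_one D
  let b : OrthonormalBasis (Fin (15 + 1)) ℝ (Eu E) :=
    (stdOrthonormalBasis ℝ (Eu E)).reindex (finCongr (by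
      rw [finrank_euclideanSpace, Fintype.card_fin, hN]))
  have hPP := P1.inst_PP_fam F hD hB hdiam hl hN hE hJ hρ one_ne_zero h hX hδ hL
    (S3S.polX hl h G) (S3S.map_polX hl h hG) hg0 hg1 X v0 hs hDR b
  obtain ⟨⟨c7, q, a7, γ, s', L, k1⟩, al, n, A, m, P, k2, k3, k4, k5⟩ :=
    hp hJ hρ X v0 hs hrad hDR b hPP hℓ' hσ hrel' ha'
  exact volume_seven_of' F hD hB hdiam hl hN hJ hρ one_ne_zero hL (S3S.polX hl h G)
    (S3S.map_polX hl h hG) hg0 hg1 hℓ' hσ hrel'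
    (weinstein7 F hD hB hdiam hl hN hE hJ hρ hL (S3S.polX hl h G) (S3S.map_polX hl h hG) hg0 hg1
      X v0 hs hDR b hPP hℓ' hσ hrel' ha' k1 k2 k3 k4 k5)

end

end Vale.Agent.P231.S3F
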