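import Vale.Agent.P231.S3F.Coh7

/-! P231, stage 3: the volume inequality in the Cayley plane case, from the level two relation and
the integrality statements. -/

set_option maxSynthPendingDepth 3
set_option linter.unusedSectionVars false
set_option linter.unusedVariables false

open Bundle Manifold Set Filter Module MeasureTheory
open scoped ContDiff Manifold Topology ENNReal Real

namespace Vale.Agent.P231.S3F

noncomputable section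

open Vale.Agent.P234 Vale.Agent.P231 Vale.Agent.P231.Fm Vale.Agent.P231.W Vale.Agent.P231.WR
  Vale.Agent.P231.H766 Vale.Agent.P231.WG Vale.Agent.P231.S2II Vale.Agent.P231.WQ
  Vale.Agent.P231.L3

variable {E : Type*} [NormedAddCommGroup E] [NormedSpace ℝ E]
  {M : Type*} [MetricSpace M] [ChartedSpace E M]
  [RiemannianBundle (fun x : M => TangentSpace 𝓘(ℝ, E) x)]
  {e : ∀ x : M, TangentSpace 𝓘(ℝ, E) x → M}
  [FiniteDimensional ℝ E] [IsManifold 𝓘(ℝ, E) ∞ M]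
  [IsContMDiffRiemannianBundle 𝓘(ℝ, E) ∞ E (fun x : M => TangentSpace 𝓘(ℝ, E) x)]
  [CompactSpace M] [ConnectedSpace M] [IsRiemannianManifold 𝓘(ℝ, E) M]
  (F : Facts e) {D : ℝ} (hD : 0 < D) (hB : InjGE e D) (hdiam : ∀ p q : M, dist p q ≤ D)

variable [MeasurableSpace M] [BorelSpace M]
  (hl : ∀ x y : M, dist x y = D → finrank ℝ (H775.Pl e D x y) = 2 * 3 + 2)
  (hN : finrank ℝ E = 15 + 1) (hE : 15 + 1 = (2 * 3 + 2) * (1 + 1))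

section one

variable {p : M}
  {Pi : TangentSpace 𝓘(ℝ, E) p → TangentSpace 𝓘(ℝ, E) p →L[ℝ] TangentSpace 𝓘(ℝ, E) p}
  {o : TangentSpace 𝓘(ℝ, E) p → Fm.Lam (TangentSpace 𝓘(ℝ, E) p)}
  {ρ : TangentSpace 𝓘(ℝ, E) p → ℝ} {r₀ : ℝ}
  (hJ : FE.LineP e D p 3 Pi o) (hρ : WE.Rho e D p ρ r₀)
  {Lm : Pr e D × ℝ → Pr e D} {Y : Pr e D → E} {ε₀ : ℝ} (hL : PushL F hD hB hdiam Lm Y ε₀)
  (g : Pr e D × ℝ → M) (hg : ((dPr e D).prod (Dif.lin ℝ)).Map (dM E M) g)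
  (hg0 : ∀ b, g (b, 0) = foot b.v) (hg1 : ∀ b t, g (Lm (b, t), 1) = g (b, 1))
  {R : ℝ} (X : Fr e p R) (v0 : UT E M) {r : Eu E → ℝ} {K : Set (Eu E)} (hr : Q.Cut r K)
  (hDR : D < R) (b : OrthonormalBasis (Fin (15 + 1)) ℝ (Eu E))

/-- **the estimate of the Weinstein number for the concrete system** -/
theorem weinstein7
    (hP : (inst F hD hB hdiam hl hN hE hJ hρ one_ne_zero hL g hg hg0 hg1 X v0 hr hDR b).PP)
    {ℓ : Form (dPr e D)} (hℓ : b1P F hD hB hdiam hL hg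
      (FE.FF F hD hB hdiam hl hJ hρ 1) = (-1 : ℝ) • b0P F hD hB hdiam
      (FE.FF F hD hB hdiam hl hJ hρ 1) + ℓ.d)
    {a' μ : ℝ} {σ : Form (dPr e D)} (hσ : Basic Lm hL.flow.map σ)
    (hrel : b1P F hD hB hdiam hL hg (FE.FF F hD hB hdiam hl hJ hρ 1) ^ 2 = a' • eP e D ^ 6 +
        μ • (eP e D ^ 2 * GsP F hD hB hdiam hg (FE.FF F hD hB hdiam hl hJ hρ 1)) + σ.d)
    (ha' : a' ≠ 0) {c7 q : Form (dUT E M)} {a7 : ℚ} {γ s : ℝ} {L : Form (dUT E M) →ₗ[ℝ] ℝ}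
    (hLT : LevelTwo (inst F hD hB hdiam hl hN hE hJ hρ one_ne_zero hL g hg hg0 hg1 X v0 hr hDR b)
      a' μ (FE.kap 3 1) c7 q a7 γ s L)
    {al : ℝ} {n A m P : ℤ} (hal : a' = al * FE.kap 3 1 ^ 2) (hμ : μ = A * FE.kap 3 1 / 2)
    (hn : |al| * n = 2) (hPm : al + A * m / 2 = P) :
    |2 * (-3 / a' ^ 2 + μ ^ 2 / a' ^ 3)| * FE.kap 3 1 ^ 4 ≤ 78 := by
  have hκ : 0 < FE.kap 3 1 := FE.kap_pos 3 one_ne_zero
  have hC := coh7 F hD hB hdiam hl hN hE hJ hρ one_ne_zero hL g hg hg0 hg1 X v0 hr hDR b hP hℓ hσ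
    hrel ha'
  have hk := inst_k F hD hB hdiam hl hN hE hJ hρ one_ne_zero hL g hg hg0 hg1 X v0 hr hDR b
  have h1 : a' / FE.kap 3 1 ^ 2 = al := by
    rw [hal]
    field_simp
  have h2 : 2 * μ / FE.kap 3 1 = A := by
    rw [hμ]
    field_simp
  refine end7 hP (S2II.isDeg_FF F hD hB hdiam hl hJ hρ 1) hC (ρ := σ) hσ hrel (ε := -1)
    (by norm_num) (l := ℓ) hℓ
    (inst_α F hD hB hdiam hl hN hE hJ hρ one_ne_zero hL g hg hg0 hg1 X v0 hr hDR b)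
    (inst_vol_ne F hD hB hdiam hl hN hE hJ hρ one_ne_zero hL g hg hg0 hg1 X v0 hr hDR b)
    hκ (by rw [hk]; ring) hLT ⟨A, h2⟩ ⟨P, -m, ?_⟩ ⟨n, by rw [h1, hn]⟩
  rw [h1]
  have h3 : μ / FE.kap 3 1 = A / 2 := by
    rw [← h2]
    ring
  rw [h3]
  push_cast
  linarith

end one

include F hN hl in
/-- **the volume inequality, Cayley plane case**, from the level two relation (`hLT`) and the
integrality statements (`hZ`) -/
theorem volume_seven_end (hD' : 0 < D) (p : M)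
    (hPP : ∀ {o : TangentSpace 𝓘(ℝ, E) p → Fm.Lam (TangentSpace 𝓘(ℝ, E) p)}
      {ρ : TangentSpace 𝓘(ℝ, E) p → ℝ} {r₀ : ℝ}
      (hJ : FE.LineP e D p 3 (FE.PiP e D p) o) (hρ : WE.Rho e D p ρ r₀)
      {T : UT E M → ℝ → E →ₗ[ℝ] E} {Lm : Pr e D × ℝ → Pr e D} {Y : Pr e D → E} {ε₀ : ℝ}
      (_ : S2I3.LT F hD hB hdiam T)
      (_ : ∀ b t, (vec' (Lm (b, t)).w : E) =
        (nm (gm e (b.v, t)) (T b.v t (vec' b.w)))⁻¹ • T b.v t (vec' b.w))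
      (hL : PushL F hD hB hdiam Lm Y ε₀)
      (_ : ∀ b t, Lm (S2N.rev F hD hB hdiam b, t) = S2N.rev F hD hB hdiam (Lm (b, -t)))
      (g : Pr e D × ℝ → M) (hg : ((dPr e D).prod (Dif.lin ℝ)).Map (dM E M) g)
      (hg0 : ∀ b, g (b, 0) = foot b.v) (hg1 : ∀ b t, g (Lm (b, t), 1) = g (b, 1))
      {R : ℝ} (X : Fr e p R) (v0 : UT E M) {r : Eu E → ℝ} {K : Set (Eu E)} (hr : Q.Cut r K)
      (hDR : D < R) (b : OrthonormalBasis (Fin (15 + 1)) ℝ (Eu E)),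
      (inst F hD hB hdiam hl hN hE hJ hρ one_ne_zero hL g hg hg0 hg1 X v0 hr hDR b).PP)
    (hLT : ∀ {o : TangentSpace 𝓘(ℝ, E) p → Fm.Lam (TangentSpace 𝓘(ℝ, E) p)}
      {ρ : TangentSpace 𝓘(ℝ, E) p → ℝ} {r₀ : ℝ}
      (hJ : FE.LineP e D p 3 (FE.PiP e D p) o) (hρ : WE.Rho e D p ρ r₀)
      {T : UT E M → ℝ → E →ₗ[ℝ] E} {Lm : Pr e D × ℝ → Pr e D} {Y : Pr e D → E} {ε₀ : ℝ}
      (_ : S2I3.LT F hD hB hdiam T)
      (_ : ∀ b t, (vec' (Lm (b, t)).w : E) =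
        (nm (gm e (b.v, t)) (T b.v t (vec' b.w)))⁻¹ • T b.v t (vec' b.w))
      (hL : PushL F hD hB hdiam Lm Y ε₀)
      (_ : ∀ b t, Lm (S2N.rev F hD hB hdiam b, t) = S2N.rev F hD hB hdiam (Lm (b, -t)))
      (g : Pr e D × ℝ → M) (hg : ((dPr e D).prod (Dif.lin ℝ)).Map (dM E M) g)
      (hg0 : ∀ b, g (b, 0) = foot b.v) (hg1 : ∀ b t, g (Lm (b, t), 1) = g (b, 1))
      {R : ℝ} (X : Fr e p R) (v0 : UT E M) {r : Eu E → ℝ} {K : Set (Eu E)} (hr : Q.Cut r K)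
      (hDR : D < R) (b : OrthonormalBasis (Fin (15 + 1)) ℝ (Eu E))
      {ℓ : Form (dPr e D)} (_ : b1P F hD hB hdiam hL hg (FE.FF F hD hB hdiam hl hJ hρ 1) =
          (-1 : ℝ) • b0P F hD hB hdiam (FE.FF F hD hB hdiam hl hJ hρ 1) + ℓ.d)
      {a' μ : ℝ} {σ : Form (dPr e D)} (_ : Basic Lm hL.flow.map σ)
      (_ : b1P F hD hB hdiam hL hg (FE.FF F hD hB hdiam hl hJ hρ 1) ^ 2 =
          a' • eP e D ^ 6 + μ • (eP e D ^ 2 *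
            GsP F hD hB hdiam hg (FE.FF F hD hB hdiam hl hJ hρ 1)) + σ.d) (_ : a' ≠ 0),
      ∃ (c7 q : Form (dUT E M)) (a7 : ℚ) (γ s : ℝ) (L : Form (dUT E M) →ₗ[ℝ] ℝ),
        LevelTwo (inst F hD hB hdiam hl hN hE hJ hρ one_ne_zero hL g hg hg0 hg1 X v0 hr hDR b)
          a' μ (FE.kap 3 1) c7 q a7 γ s L)
    (hZ : ∀ {o : TangentSpace 𝓘(ℝ, E) p → Fm.Lam (TangentSpace 𝓘(ℝ, E) p)}
      {ρ : TangentSpace 𝓘(ℝ, E) p → ℝ} {r₀ : ℝ}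
      (hJ : FE.LineP e D p 3 (FE.PiP e D p) o) (hρ : WE.Rho e D p ρ r₀)
      {T : UT E M → ℝ → E →ₗ[ℝ] E} {Lm : Pr e D × ℝ → Pr e D} {Y : Pr e D → E} {ε₀ : ℝ}
      (_ : S2I3.LT F hD hB hdiam T)
      (_ : ∀ b t, (vec' (Lm (b, t)).w : E) =
        (nm (gm e (b.v, t)) (T b.v t (vec' b.w)))⁻¹ • T b.v t (vec' b.w))
      (hL : PushL F hD hB hdiam Lm Y ε₀)
      (_ : ∀ b t, Lm (S2N.rev F hD hB hdiam b, t) = S2N.rev F hD hB hdiam (Lm (b, -t)))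
      (g : Pr e D × ℝ → M) (hg : ((dPr e D).prod (Dif.lin ℝ)).Map (dM E M) g)
      (_ : ∀ b, g (b, 0) = foot b.v) (_ : ∀ b t, g (Lm (b, t), 1) = g (b, 1))
      {ℓ : Form (dPr e D)} (_ : b1P F hD hB hdiam hL hg (FE.FF F hD hB hdiam hl hJ hρ 1) =
          (-1 : ℝ) • b0P F hD hB hdiam (FE.FF F hD hB hdiam hl hJ hρ 1) + ℓ.d)
      {a' μ : ℝ} {σ : Form (dPr e D)} (_ : Basic Lm hL.flow.map σ)
      (_ : b1P F hD hB hdiam hL hg (FE.FF F hD hB hdiam hl hJ hρ 1) ^ 2 =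
          a' • eP e D ^ 6 + μ • (eP e D ^ 2 *
            GsP F hD hB hdiam hg (FE.FF F hD hB hdiam hl hJ hρ 1)) + σ.d) (_ : a' ≠ 0),
      ∃ (al : ℝ) (n A m P : ℤ), a' = al * FE.kap 3 1 ^ 2 ∧ μ = A * FE.kap 3 1 / 2 ∧
        |al| * n = 2 ∧ al + A * m / 2 = P) :
    Blaschke.riemannianVolume (15 + 1) M univ ≤
      ENNReal.ofReal (Blaschke.modelVolume 15 7 D) := by
  refine volume_seven' F hD hB hdiam hl hN hD' p ?_
  intro o ρ r₀ hJ hρ T Lm Y ε₀ hT hw hL hrev g hg hg0 hg1 ℓ hℓ a' μ σ hσ hrel ha'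
  have hnt : Nontrivial E := nontrivial_of_finrank_pos (R := ℝ) (by omega)
  obtain ⟨v0, -⟩ := S2II.exists_foot (E := E) p
  obtain ⟨X⟩ := nonempty_fr F hD hB p (D + 1)
  obtain ⟨r, K, hr, hrad⟩ := exists_radCut (V := Eu E)
  have hDR : D < D + 1 := lt_add_one D
  let b : OrthonormalBasis (Fin (15 + 1)) ℝ (Eu E) :=
    (stdOrthonormalBasis ℝ (Eu E)).reindex (finCongr (by
      rw [finrank_euclideanSpace, Fintype.card_fin, hN]))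
  obtain ⟨c7, q, a7, γ, s, L, h1⟩ := hLT hJ hρ hT hw hL hrev g hg hg0 hg1 X v0 hr hDR b hℓ hσ hrel
    ha'
  obtain ⟨al, n, A, m, P, h2, h3, h4, h5⟩ := hZ hJ hρ hT hw hL hrev g hg hg0 hg1 hℓ hσ hrel ha'
  exact weinstein7 F hD hB hdiam hl hN hE hJ hρ hL g hg hg0 hg1 X v0 hr hDR b
    (hPP hJ hρ hT hw hL hrev g hg hg0 hg1 X v0 hr hDR b) hℓ hσ hrel ha' h1 h2 h3 h4 h5

end

end Vale.Agent.P231.S3F
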