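import Vale.Agent.P231.S3F.Fam7
import Vale.Agent.P231.L.Top

/-! P231, stage 3: the main theorem for cut multiplicity seven, from the level two relation and the
integrality statements for the standard family. -/

set_option maxSynthPendingDepth 3
set_option linter.unusedSectionVars false
set_option linter.unusedVariables false

open Bundle Manifold Set Filter Module MeasureTheory
open scoped ContDiff Manifold Topology ENNReal Real

namespace Vale.Agent.P231.S3F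

noncomputable section

open Vale.Agent.P234 Vale.Agent.P231 Vale.Agent.P231.Fm Vale.Agent.P231.W Vale.Agent.P231.WR
  Vale.Agent.P231.H766 Vale.Agent.P231.WG Vale.Agent.P231.S2II Vale.Agent.P231.WQ
  Vale.Agent.P231.L3

variable {E : Type*} [NormedAddCommGroup E] [NormedSpace ℝ E]
  {M : Type*} [MetricSpace M] [ChartedSpace E M]
  [RiemannianBundle (fun x : M => TangentSpace 𝓘(ℝ, E) x)]
  {e : ∀ x : M, TangentSpace 𝓘(ℝ, E) x → M}
  [FiniteDimensional ℝ E] [IsManifold 𝓘(ℝ, E) ∞ M]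
  [IsContMDiffRiemannianBundle 𝓘(ℝ, E) ∞ E (fun x : M => TangentSpace 𝓘(ℝ, E) x)]
  [CompactSpace M] [ConnectedSpace M] [IsRiemannianManifold 𝓘(ℝ, E) M]
  [MeasurableSpace M] [BorelSpace M]

/-- **Main theorem for cut multiplicity seven in dimension sixteen**, from the level two relation
and the integrality statements for the standard family. -/
theorem main_seven_of (he : IsExp e) (hinj : Blaschke.InjGeDiam e) (hdim : finrank ℝ E = 16)
    (hl : IsLeast {k | Blaschke.MultLE e k} 7)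
    (hInt : ∀ (F : Facts e) {D : ℝ} (hD : 0 < D) (hB : InjGE e D)
      (hdiam : ∀ p q : M, dist p q ≤ D)
      (hl : ∀ x y : M, dist x y = D → finrank ℝ (H775.Pl e D x y) = 2 * 3 + 2)
      (hN : finrank ℝ E = 15 + 1) (hE : 15 + 1 = (2 * 3 + 2) * (1 + 1))
      {ι : Type} [Fintype ι] [DecidableEq ι] {Z δ : ι → UT E M → E} {ε : ℝ}
      {τ : ι ≃ ι} (h : S2N.Fam F hD hB hdiam (2 * 3 + 1) Z δ ε)
      (_ : ∀ i v, Z (τ i) v = Z i (ng v)) (_ : ∀ i v, δ (τ i) v = δ i (ng v)) {ε₀ : ℝ}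
      (hL : PushL F hD hB hdiam (S2N.Lam hl h) (S2N.Yb F hD hB hdiam Z δ ε) ε₀)
      (_ : S3Y.EnLt e (S2N.Lam hl h) (S2N.Yb F hD hB hdiam Z δ ε) ε₀),
      ∃ r₁ : ℝ, 0 < r₁ ∧ ∀ r : ℝ, 0 < r → r ≤ r₁ → ∀ {G : Pr e D × ℝ → M}
        (hG : S3S.StdP e (S2N.Lam hl h) (S2N.Yb F hD hB hdiam Z δ ε) r G)
        (_ : S3Y.Margin (S2N.Lam hl h) G),
        ∃ p : M, ∀ {o : TangentSpace 𝓘(ℝ, E) p → Fm.Lam (TangentSpace 𝓘(ℝ, E) p)}
          {ρ : TangentSpace 𝓘(ℝ, E) p → ℝ} {r₀ : ℝ}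
          (hJ : FE.LineP e D p 3 (FE.PiP e D p) o) (hρ : WE.Rho e D p ρ r₀)
          {R : ℝ} (X : Fr e p R) (v0 : UT E M) {s : Eu E → ℝ} {K : Set (Eu E)} (hs : Q.Cut s K)
          (_ : ∀ y z : Eu E, (inner ℝ y z : ℝ) = 0 → fderiv ℝ s y z = 0)
          (hDR : D < R) (b : OrthonormalBasis (Fin (15 + 1)) ℝ (Eu E))
          (_ : (inst F hD hB hdiam hl hN hE hJ hρ one_ne_zero hL (S3S.polX hl h G)
            (S3S.map_polX hl h hG) (S3S.polX_zero hl h hG) (S3S.polX_one hl h hG) X v0 hs hDR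
              b).PP)
          {ℓ : Form (dPr e D)} (_ : b1P F hD hB hdiam hL (S3S.map_polX hl h hG)
              (FE.FF F hD hB hdiam hl hJ hρ 1) =
              (-1 : ℝ) • b0P F hD hB hdiam (FE.FF F hD hB hdiam hl hJ hρ 1) + ℓ.d)
          {a' μ : ℝ} {σ : Form (dPr e D)} (_ : Basic (S2N.Lam hl h) hL.flow.map σ)
          (_ : b1P F hD hB hdiam hL (S3S.map_polX hl h hG)
                (FE.FF F hD hB hdiam hl hJ hρ 1) ^ 2 =
              a' • eP e D ^ 6 + μ • (eP e D ^ 2 * GsP F hD hB hdiam (S3S.map_polX hl h hG)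
                (FE.FF F hD hB hdiam hl hJ hρ 1)) + σ.d) (_ : a' ≠ 0),
          (∃ (c7 q : Form (dUT E M)) (a7 : ℚ) (γ s' : ℝ) (L : Form (dUT E M) →ₗ[ℝ] ℝ),
            LevelTwo (inst F hD hB hdiam hl hN hE hJ hρ one_ne_zero hL (S3S.polX hl h G)
              (S3S.map_polX hl h hG) (S3S.polX_zero hl h hG) (S3S.polX_one hl h hG) X v0 hs hDR
                b) a' μ (FE.kap 3 1) c7 q a7 γ s' L) ∧
          ∃ (al : ℝ) (n A m P : ℤ), a' = al * FE.kap 3 1 ^ 2 ∧ μ = A * FE.kap 3 1 / 2 ∧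
            |al| * n = 2 ∧ al + A * m / 2 = P) :
    Blaschke.GeodesicSymmetric e ∧ Blaschke.TwoPointHomogeneous M := by
  have hN : finrank ℝ E = 15 + 1 := hdim
  have hE : 15 + 1 = (2 * 3 + 2) * (1 + 1) := by norm_num
  refine L.hand_of_volume he hinj hN hl fun Fa D hD hB hdiam _ hK hP => ?_
  exact volume_seven_std Fa hD hB hdiam hP hN hE hD (hInt Fa hD hB hdiam hP hN hE)

end

end Vale.Agent.P231.S3F
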